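import Crest.Agent.X212.Lsf39.Top
import Crest.Agent.X212.Line51.Lit
import Crest.Agent.X212.Sep15.Defs
import Crest.Agent.X212.Orx52.Gen

/-!
# X212 / Lsf39 / Main (helper39): lines on a closed oriented surface

* `ae_isolated`, `finite_zeros` : a generic section `p v` has finitely many zeros;
* `zc a` : positive complex charts, `le_zc` (positive local maps), `atl_zc`;
* `lsurf` : a line on a connected closed surface is isomorphic to its pull-back under an
  orientation preserving diffeomorphism.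
-/

set_option autoImplicit false
set_option linter.unusedSectionVars false

open Set Function Filter Matrix MeasureTheory Module
open scoped Topology ContDiff Manifold
open Crest.Agent.R208 Crest.Agent.R208.F Crest.Agent.X212.Dr59 Crest.Agent.X212.Int54
  Crest.Agent.X212.Pic56 Crest.Agent.X212.Pj41 Crest.Agent.X212.Orx52 Crest.Agent.X212.Sep15
  Crest.Agent.X212.Line51

namespace Crest.Agent.X212.Lsf39

noncomputable section

/-- almost every value has isolated preimages -/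
theorem ae_isolated {E : Type*} [NormedAddCommGroup E] [NormedSpace ℝ E] [FiniteDimensional ℝ E]
    [MeasurableSpace E] [BorelSpace E] (μ : Measure E) [μ.IsAddHaarMeasure] (G : E → E) :
    ∀ᵐ v ∂μ, ∀ w, DifferentiableAt ℝ G w → G w = v → ∀ᶠ w' in 𝓝[≠] w, G w' ≠ v := by
  have h := addHaar_image_eq_zero_of_det_fderivWithin_eq_zero μ (f := G) (f' := fderiv ℝ G)
    (s := {w | DifferentiableAt ℝ G w ∧ (fderiv ℝ G w).det = 0})
    (fun w hw => hw.1.hasFDerivAt.hasFDerivWithinAt) fun w hw => hw.2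
  filter_upwards [measure_eq_zero_iff_ae_notMem.1 h] with v hv w h1 h2
  obtain ⟨K, -, hK⟩ := LinearMap.exists_antilipschitzWith (fderiv ℝ G w : E →ₗ[ℝ] E)
    (by_contra fun h0 => hv ⟨w, ⟨h1, LinearMap.det_eq_zero_iff_ker_ne_bot.2 h0⟩, h2⟩)
  exact h1.hasFDerivAt.eventually_ne ⟨K, hK⟩

variable {κ l : Type*} [Fintype κ] [Fintype l]

/-- a generic section has finitely many zeros -/
theorem finite_zeros {X : Type*} [TopologicalSpace X] [CompactSpace X] {p : X → Matrix κ κ ℂ}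
    (cp : Continuous p) (hp : ∀ x, (p x).trace = 1) {z : X → OpenPartialHomeomorph X ℂ}
    (hz : ∀ x, x ∈ (z x).source)
    (hd : ∀ x i j, ∀ w ∈ (z x).target, DifferentiableAt ℝ (fun w => p ((z x).symm w) i j) w) :
    ∃ v, {x | p x *ᵥ v = 0}.Finite := by
  classical
  obtain ⟨t, ht⟩ := isCompact_univ.elim_finite_subcover _ (fun x => (z x).open_source)
    fun x _ => mem_iUnion.2 ⟨x, hz x⟩
  let G : X → κ → (κ → ℂ) → κ → ℂ := fun x i w =>
    w - ((∑ j, p ((z x).symm (w i)) i j * w j) / p ((z x).symm (w i)) i i) • Pi.single i 1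
  obtain ⟨v, hv⟩ := ((ae_ball_iff t.countable_toSet).2 fun x _ =>
    ae_all_iff.2 fun i => ae_isolated (volume : Measure (κ → ℂ)) (G x i)).exists
  refine ⟨v, (isClosed_eq (cp.matrix_mulVec continuous_const) continuous_const).isCompact.finite
    (isDiscrete_iff_nhdsNE.2 fun y hy => inf_principal_eq_bot.2 ?_)⟩
  obtain ⟨x, hx, hxy⟩ := mem_iUnion₂.1 (ht (mem_univ y))
  obtain ⟨i, hi⟩ : ∃ i, p y i i ≠ 0 := by
    by_contra h
    push Not at h
    simpa [trace, h] using hp y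
  let w : X → κ → ℂ := fun y' => update v i (z x y')
  have wi : ∀ y' ∈ (z x).source, (z x).symm (w y' i) = y' := fun y' h => by
    simp [w, (z x).left_inv h]
  have key : ∀ y' ∈ (z x).source, p y' i i ≠ 0 → p y' *ᵥ v = 0 → G x i (w y') = v := by
    intro y' h1 h2 h3
    have h4 : ∑ j, p y' i j * w y' j = p y' i i * (z x y' - v i) := by
      have h5 : ∑ j, p y' i j * v j = 0 := congrFun h3 i
      rw [← Finset.add_sum_erase _ _ (Finset.mem_univ i)] at h5 ⊢
      rw [Finset.sum_congr rfl fun j hj => by rw [show w y' j = v j from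
        update_of_ne (Finset.ne_of_mem_erase hj) _ _]]
      simp only [w, update_self]
      linear_combination h5
    simp only [G, wi y' h1, h4, mul_div_cancel_left₀ _ h2]
    funext j
    rcases eq_or_ne j i with rfl | hj
    · simp [w]
    · simp [w, hj]
  have dp : ∀ j, DifferentiableAt ℝ (fun w : κ → ℂ => p ((z x).symm (w i)) i j) (w y) := fun j =>
    (hd x i j _ (by simpa [w] using (z x).map_source hxy)).comp (w y) (differentiableAt_apply i _)
  have d1 := (DifferentiableAt.fun_sum (u := Finset.univ) fun j _ =>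
    (dp j).fun_mul (differentiableAt_apply j _)).fun_mul ((dp i).fun_inv (by rwa [wi y hxy]))
  have h1 := hv x hx i (w y) (differentiableAt_id.sub (d1.smul_const _)) (key y hxy hi hy)
  have hs := (z x).open_source.mem_nhds hxy
  have h2 : Tendsto w (𝓝[≠] y) (𝓝[≠] (w y)) := by
    refine tendsto_nhdsWithin_iff.2 ⟨tendsto_nhdsWithin_of_tendsto_nhds
      (continuousAt_const.update i ((z x).continuousAt hxy)), ?_⟩
    filter_upwards [self_mem_nhdsWithin, nhdsWithin_le_nhds hs] with y' h3 h4 h5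
    exact h3 (by rw [← wi y' h4, mem_singleton_iff.1 h5, wi y hxy]; rfl)
  filter_upwards [h2.eventually h1, nhdsWithin_le_nhds hs,
    nhdsWithin_le_nhds ((cp.matrix_elem i i).continuousAt.eventually_ne hi)] with y' h3 h4 h5 h6
  exact h3 (key y' h4 h5 h6)

/-! ### positive charts -/

theorem rk2 : finrank ℝ ℂ = finrank ℝ (EE 2) := by simp

theorem exists_io (t : ℝ) : ∃ ι : EE 2 ≃L[ℝ] ℂ, t ≠ 0 → 0 < t * jac (ι : EE 2 →L[ℝ] ℂ) := by
  let e : EE 2 ≃L[ℝ] ℂ := (eqv rk2).symm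
  by_cases h : 0 < t * jac (e : EE 2 →L[ℝ] ℂ)
  · exact ⟨e, fun _ => h⟩
  refine ⟨e.trans Complex.conjCLE, fun ht => ?_⟩
  have h1 := jac_comp rk2 rfl (Complex.conjCLE : ℂ →L[ℝ] ℂ) (e : EE 2 →L[ℝ] ℂ)
  have h2 : jac (Complex.conjCLE : ℂ →L[ℝ] ℂ) = -1 := by
    rw [jac_self]; exact Complex.det_conjAe
  rw [h2] at h1
  rw [show ((e.trans Complex.conjCLE : EE 2 ≃L[ℝ] ℂ) : EE 2 →L[ℝ] ℂ) =
    (Complex.conjCLE : ℂ →L[ℝ] ℂ).comp (e : EE 2 →L[ℝ] ℂ) from rfl, h1]
  have := (not_lt.1 h).lt_of_ne (mul_ne_zero ht (jac_ne_zero e))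
  linarith

variable {R : Type*} [TopologicalSpace R] [ChartedSpace (EE 2) R] [IsManifold (𝓡 2) ∞ R]
  {a : R → Ext (EE 2)}

/-- the linear part of the positive chart -/
def io (a : R → Ext (EE 2)) (x : R) : EE 2 ≃L[ℝ] ℂ := (exists_io (tp (EE 2) (a x))).choose

/-- positive complex charts -/
def zc (a : R → Ext (EE 2)) (x : R) : OpenPartialHomeomorph R ℂ :=
  (chartAt (EE 2) x).transHomeomorph (io a x).toHomeomorph

theorem zc_eq (x : R) : (zc a x : R → ℂ) = io a x ∘ extChartAt (𝓡 2) x := rfl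

theorem zc_symm (x : R) : ((zc a x).symm : ℂ → R) = (extChartAt (𝓡 2) x).symm ∘ (io a x).symm := rfl

theorem mem_zc (x : R) : x ∈ (zc a x).source := mem_chart_source _ x

theorem sm_zc {x y : R} (h : y ∈ (zc a x).source) : ContMDiffAt (𝓡 2) 𝓘(ℝ, ℂ) ∞ (zc a x) y :=
  (io a x).contDiff.contDiffAt.comp_contMDiffAt (contMDiffAt_extChartAt' h)

theorem sm_zc_symm {x : R} {w : ℂ} (h : w ∈ (zc a x).target) :
    ContMDiffAt 𝓘(ℝ, ℂ) (𝓡 2) ∞ (zc a x).symm w :=
  (contMDiffAt_chart_symm (x := x) (u := (io a x).symm w) (by simpa [zc] using h)).comp w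
    (io a x).symm.contDiff.contDiffAt.contMDiffAt

theorem mf_zc (x : R) : mf (𝓡 2) 𝓘(ℝ, ℂ) (zc a x) x = io a x := by
  rw [zc_eq, mf_comp (io a x).differentiableAt.mdifferentiableAt
    ((contMDiffAt_chart (mem_extChartAt_source x)).mdifferentiableAt (by simp)), mf_chart_self,
    mf_eq_fderiv, (io a x).fderiv]
  rfl

theorem pos_zc (ha : Ori (𝓡 2) a) (x : R) :
    0 < tp (EE 2) (a x) * jac (mf (𝓡 2) 𝓘(ℝ, ℂ) (zc a x) x) := by
  rw [mf_zc]
  exact (exists_io _).choose_spec (ha.ne x)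

/-- a positive local map is equivalent to the positive chart -/
theorem le_zc (ha : Ori (𝓡 2) a) {c : R → ℂ} {y : R} (hc : ContMDiffAt (𝓡 2) 𝓘(ℝ, ℂ) ∞ c y)
    (h : 0 < tp (EE 2) (a y) * jac (mf (𝓡 2) 𝓘(ℝ, ℂ) c y)) :
    LE (fun w => c w - c y) (fun w => zc a y w - zc a y y) y := by
  have hy := mem_zc (a := a) y
  have e0 := (zc a y).left_inv hy
  have s1 := sm_zc_symm ((zc a y).map_source hy)
  have s2 : ContMDiffAt 𝓘(ℝ, ℂ) 𝓘(ℝ, ℂ) ∞ (c ∘ (zc a y).symm) (zc a y y) :=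
    ContMDiffAt.comp _ (by rwa [e0]) s1
  have ev : (c ∘ (zc a y).symm) ∘ zc a y =ᶠ[𝓝 y] c :=
    eventually_of_mem ((zc a y).open_source.mem_nhds hy) fun x hx => congrArg c ((zc a y).left_inv hx)
  have h1 := mf_congr (J := 𝓡 2) (I := 𝓘(ℝ, ℂ)) ev
  rw [mf_comp (s2.mdifferentiableAt (by simp)) ((sm_zc hy).mdifferentiableAt (by simp)),
    mf_eq_fderiv] at h1
  rw [← h1, jac_comp rk2 rfl, jac_self, ← mul_assoc] at h
  obtain ⟨U, hU, cU⟩ := (s2.contDiffAt.of_le (m := 0) (by simp)).contDiffOn le_rfl (by simp)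
  have := (le_of_det (s2.contDiffAt.differentiableAt (by simp)).hasFDerivAt
    ((mul_pos_iff_of_pos_left (pos_zc ha y)).1 h) hU cU.continuousOn).comp
    ((zc a y).open_source.mem_nhds hy) (zc a y).continuousOn fun x hx e => (zc a y).injOn hx hy e
  refine (LE.of_eq (nhdsWithin_le_nhds (ev.mono fun x hx => ?_))).trans this
  simp only [Function.comp_apply, e0] at hx ⊢
  rw [hx]

theorem atl_zc (ha : Ori (𝓡 2) a) : Atl (zc a) := by
  refine ⟨mem_zc, fun x => ?_⟩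
  have e : ∀ y, tp (EE 2) (pm (𝓡 2) 𝓘(ℝ, ℂ) (zc a x) (fun _ => vol0 ℂ) y) =
      jac (mf (𝓡 2) 𝓘(ℝ, ℂ) (zc a x) y) := fun y => by
    rw [pm_apply, tp_pb rk2, tp_vol0, mul_one]
  have c := contAt_rat (ha.sm x) (ha.ne x) (SmAt.pm (sm_zc (a := a) (mem_zc x)) (ori_model.sm _))
  filter_upwards [c.eventually (lt_mem_nhds (pos_rat.2 (e x ▸ pos_zc ha x))),
    (zc a x).open_source.mem_nhds (mem_zc x)] with y h1 h2
  exact le_zc ha (sm_zc h2) (e y ▸ pos_rat.1 h1)

variable [T2Space R] [CompactSpace R] [PreconnectedSpace R]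

theorem exists_ty_zc [DecidableEq κ] (ha : Ori (𝓡 2) a) {p : R → Matrix κ κ ℂ}
    (sp : ∀ x, MSm (𝓡 2) p x) (hp : ∀ x, Rk1 (p x)) (q : R) :
    ∃ n, Ty (fun x => clm (p x)) (zc a) q n := by
  have cp : Continuous p := continuous_iff_continuousAt.2 fun x => (sp x).continuousAt
  obtain ⟨v, hv⟩ := finite_zeros cp (fun x => (hp x).trace_eq) (mem_zc (a := a)) fun x i j w hw =>
    ((sp _ i j).comp w (sm_zc_symm hw)).contDiffAt.differentiableAt (by simp)
  exact exists_ty (atl_zc ha) (isLine_clm cp.continuousOn fun x _ => hp x) hv (s := fun x => p x *ᵥ v)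
    ⟨(cp.matrix_mulVec continuous_const).continuousOn,
      fun x _ => by rw [clm_apply, mulVec_mulVec, (hp x).idem], fun x hx => hx⟩ q

/-- the normal form is invariant under orientation preserving diffeomorphisms -/
theorem Ty.pull {V : Type*} [NormedAddCommGroup V] [NormedSpace ℂ V] {P : R → V →L[ℂ] V}
    (ha : Ori (𝓡 2) a) (s : R ≃ₘ^∞⟮𝓡 2, 𝓡 2⟯ R) (hs : SameOn a (pm (𝓡 2) (𝓡 2) s a) univ)
    {q : R} {n : ℤ} (h : Ty P (zc a) q n) : Ty (fun x => P (s x)) (zc a) q n := by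
  refine (h.move (atl_zc ha) q (s q)).comp s.continuous s.injective
    (le_zc ha (c := zc a (s q) ∘ s) ((sm_zc (mem_zc _)).comp q (s.contMDiff q)) ?_)
  have h1 := hs q trivial
  have h2 := pos_zc ha (s q)
  rw [tp_ld (s.isLocalDiffeomorph q), ← mul_assoc] at h1
  rw [mf_comp ((sm_zc (mem_zc _)).mdifferentiableAt (by simp))
    ((s.contMDiff q).mdifferentiableAt (by simp)), jac_comp rfl rk2, ← mul_assoc]
  exact pos_trans h1 h2

/-- **LSURF** -/
theorem lsurf' (ha : Ori (𝓡 2) a) (s : R ≃ₘ^∞⟮𝓡 2, 𝓡 2⟯ R)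
    (hs : SameOn a (pm (𝓡 2) (𝓡 2) s a) univ) {L : Ln (EE 2) R κ} (hL : L.On (𝓡 2) univ) :
    ∃ u, Uni (𝓡 2) (L.pull (𝓡 2) (𝓡 2) s).p L.p u univ := by
  classical
  rcases isEmpty_or_nonempty R with h | ⟨⟨q⟩⟩
  · exact ⟨0, fun x => isEmptyElim x, fun x => isEmptyElim x⟩
  have hp : ∀ x, Rk1 (L.p x) := fun x => hL.rk1 trivial
  obtain ⟨n, hn⟩ := exists_ty_zc ha (fun x => hL.sm x trivial) hp q
  obtain ⟨m, h1, h2, h3⟩ := (hn.pull ha s hs).hom (atl_zc ha) (fun x => (hp _).herm) hn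
  obtain ⟨u, hu⟩ := exists_liso (I := 𝓡 2) (fun x => (hL.sm _ trivial).comp (s.contMDiff x))
    (fun x => hL.sm x trivial) (fun x => hp _) hp h1 h2 h3
  exact ⟨u, uni_of_liso hu fun _ => (hp _).idem⟩

theorem lsurf (R : CM 2) [PreconnectedSpace R] {a : R → Ext (EE 2)} (ha : Ori (𝓡 2) a)
    (s : R ≃ₘ^∞⟮𝓡 2, 𝓡 2⟯ R) (hs : SameOn a (pm (𝓡 2) (𝓡 2) s a) univ) {L : Ln (EE 2) R κ}
    (hL : L.On (𝓡 2) univ) : ∃ u, Uni (𝓡 2) (L.pull (𝓡 2) (𝓡 2) s).p L.p u univ :=
  lsurf' ha s hs hL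

end

end Crest.Agent.X212.Lsf39
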