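import Crest.Agent.X212.Lsf39.Main
import Crest.Agent.X212.Hel40.Defs
import Crest.Agent.X212.Tw39.Tw
import Crest.Agent.X212.Orx52.Sw
import Crest.Agent.X212.Int54.Stokes

/-!
# X212 / Lsf39 / Ext (helper39): extension of circle maps over a connected part of a surface

* `exists_smooth` : relative smoothing of a nowhere vanishing function;
* `ix_zero` : a single vortex on a closed oriented surface has index zero (Stokes);
* `one_vortex` : vortices in a connected open set are collected at one point;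
* `ext : Hel40.ExtStmt`.
-/

set_option autoImplicit false
set_option linter.unusedSectionVars false

open Set Function Filter MeasureTheory Module Metric Complex
open scoped Topology ContDiff Manifold
open Crest.Agent.R208 Crest.Agent.R208.F Crest.Agent.X212.Dr59 Crest.Agent.X212.Int54
  Crest.Agent.X212.Pic56 Crest.Agent.X212.Orx52 Crest.Agent.X212.Sep15 Crest.Agent.X212.Line51
open Crest.Agent.X212.Glue52 (dir coe_dir contMDiffAt_dir dir_mul norm_mul_dir)

namespace Crest.Agent.X212.Lsf39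

noncomputable section

/-- relative smoothing -/
theorem exists_smooth {E H M : Type*} [NormedAddCommGroup E] [NormedSpace ℝ E]
    [FiniteDimensional ℝ E] [TopologicalSpace H] (I : ModelWithCorners ℝ E H) [TopologicalSpace M]
    [ChartedSpace H M] [IsManifold I ∞ M] [SigmaCompactSpace M] [T2Space M] {s : M → ℂ}
    {K C : Set M} (hK : IsClosed K) (hC : IsClosed C) (h : ∀ x ∈ K, ContinuousAt s x ∧ s x ≠ 0)
    (h' : ∀ x ∈ C, ∀ᶠ y in 𝓝 x, ContMDiffAt I 𝓘(ℝ, ℂ) ∞ s y) :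
    ∃ g : M → ℂ, ContMDiff I 𝓘(ℝ, ℂ) ∞ g ∧ (∀ x ∈ C, g x = s x) ∧ ∀ x ∈ K, g x ≠ 0 := by
  obtain ⟨g, hg⟩ := exists_contMDiffMap_forall_mem_convex_of_local (n := ⊤) I
    (t := fun x => {w | x ∈ C → w = s x} ∩ {w | x ∈ K → w ∈ ball (s x) ‖s x‖})
    (fun x => Convex.inter (by by_cases hx : x ∈ C <;> simp [hx, convex_univ, convex_singleton])
      (by by_cases hx : x ∈ K
          · simp only [hx, true_imp_iff]; exact convex_ball (s x) ‖s x‖
          · simp [hx, convex_univ])) fun x => by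
    by_cases hx : x ∈ C
    · exact ⟨_, h' x hx, s, fun y hy => ContMDiffAt.contMDiffWithinAt hy, fun y _ =>
        ⟨fun _ => rfl, fun hy => mem_ball_self (norm_pos_iff.2 (h y hy).2)⟩⟩
    by_cases hx' : x ∈ K
    · have h1 := (continuousAt_const (y := s x)).dist (h x hx').1 |>.eventually_lt (h x hx').1.norm
        (by simpa using (h x hx').2)
      exact ⟨_, inter_mem (hC.isOpen_compl.mem_nhds hx) h1, fun _ => s x, contMDiffOn_const,
        fun y hy => ⟨fun h => (hy.1 h).elim, fun _ => hy.2⟩⟩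
    · exact ⟨_, inter_mem (hC.isOpen_compl.mem_nhds hx) (hK.isOpen_compl.mem_nhds hx'), 0,
        contMDiffOn_const, fun y hy => ⟨fun h => (hy.1 h).elim, fun h => (hy.2 h).elim⟩⟩
  refine ⟨g, g.contMDiff, fun x hx => (hg x).1 hx, fun x hx e => ?_⟩
  simpa [e] using (hg x).2 hx

theorem dir_exp (w : ℂ) : dir (exp w) = Circle.exp w.im := by
  rw [← re_add_im w, exp_add, ← ofReal_exp, ← Circle.coe_exp, dir_mul (Real.exp_pos _)]
  simp

variable {R : Type*} [TopologicalSpace R] [ChartedSpace (EE 2) R] [IsManifold (𝓡 2) ∞ R]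
  {a : R → Ext (EE 2)} [T2Space R] [CompactSpace R]

theorem df_congr' {f g : R → ℝ} {x : R} (h : f =ᶠ[𝓝 x] g) : df (𝓡 2) f x = df (𝓡 2) g x := by
  rw [df, df, mf_congr h]

/-- the local computation `d κ(|c|²) ∧ d arg cⁿ = 2 n κ' dx dy` -/
theorem df_mul_ang {c : R → ℂ} {x : R} (hc : ContMDiffAt (𝓡 2) 𝓘(ℝ, ℂ) ∞ c x) (h0 : c x ≠ 0)
    {κ : ℝ → ℝ} {k : ℝ} (hk : HasDerivAt κ k (normSq (c x))) (n : ℤ) :
    df (𝓡 2) (fun y => κ (normSq (c y))) x * ang (𝓡 2) (fun y => dir (c y ^ n)) x =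
      (2 * k * n) • pm (𝓡 2) 𝓘(ℝ, ℂ) c oZ x := by
  let L : ℂ → ℂ := fun z => log (z / c x)
  have m : c x / c x ∈ slitPlane := by simp [h0]
  have dL : HasDerivAt L (c x)⁻¹ (c x) := by
    simpa [h0] using ((hasDerivAt_id (c x)).div_const (c x)).clog m
  have sL : ContMDiffAt (𝓡 2) 𝓘(ℝ, ℂ) ∞ (L ∘ c) x := ContDiffAt.comp_contMDiffAt
    (ContDiffAt.comp (f := fun z => z / c x) (c x) ((contDiffAt_log m).restrict_scalars ℝ)
      (contDiffAt_id.div_const _)) hc
  have ev : ∀ᶠ y in 𝓝 x, c y = exp (log (c x) + L (c y)) := by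
    filter_upwards [hc.continuousAt.eventually_ne h0] with y hy
    rw [exp_add, exp_log h0, exp_log (div_ne_zero hy h0), mul_div_cancel₀ _ h0]
  have s1 : ContMDiffAt (𝓡 2) 𝓘(ℝ, ℝ) ∞ (fun y => (L (c y)).re) x :=
    reCLM.contDiff.contDiffAt.comp_contMDiffAt sL
  have s2 : ContMDiffAt (𝓡 2) 𝓘(ℝ, ℝ) ∞ (fun y => (L (c y)).im) x :=
    imCLM.contDiff.contDiffAt.comp_contMDiffAt sL
  have L0 : (L (c x)).re = 0 := by simp [L]
  have e1 : df (𝓡 2) (fun y => κ (normSq (c y))) x =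
      (k * (normSq (c x) * 2)) • df (𝓡 2) (fun y => (L (c y)).re) x := by
    rw [← Tw39.df_comp (g := fun t => κ (normSq (c x) * Real.exp (2 * t)))
      (s1.mdifferentiableAt ne0) (by
        rw [L0]
        exact HasDerivAt.comp (0 : ℝ) (h₂ := κ) (by simpa using hk) (by
          simpa using (((hasDerivAt_id (0 : ℝ)).const_mul 2).exp).const_mul (normSq (c x))))]
    refine df_congr' (ev.mono fun y hy => ?_)
    simp only
    rw [hy, exp_add, exp_log h0, map_mul, normSq_eq_norm_sq (exp _), norm_exp, ← Real.exp_nat_mul,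
      ← exp_log h0, ← exp_add, ← hy]
    rfl
  have e2 : ang (𝓡 2) (fun y => dir (c y ^ n)) x = (n : ℝ) • df (𝓡 2) (fun y => (L (c y)).im) x := by
    rw [← Tw39.df_comp (g := fun t => n * ((log (c x)).im + t)) (s2.mdifferentiableAt ne0)
      (by simpa using ((hasDerivAt_id _).const_add _).const_mul (n : ℝ)),
      ← ang_exp (f := fun y => n * ((log (c x)).im + (L (c y)).im))
        (contMDiffAt_const.mul (contMDiffAt_const.add s2))]
    refine ang_congr (ev.mono fun y hy => ?_)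
    simp only
    conv_lhs => rw [hy, ← exp_int_mul, dir_exp]
    simp
  have e3 := pm_oZ (sL.mdifferentiableAt ne0)
  rw [← pm_comp (dL.differentiableAt.restrictScalars ℝ).mdifferentiableAt (hc.mdifferentiableAt ne0),
    pm_apply, pm_oZ_hol dL, map_smul, ← pm_apply] at e3
  rw [e1, e2, smul_mul_smul_comm]
  erw [← e3]
  rw [smul_smul, normSq_inv]
  congr 1
  have := normSq_pos.2 h0
  field_simp

/-- a single vortex has index zero -/
theorem ix_zero (ha : Ori (𝓡 2) a) {s : R → ℂ} {q : R} {n : ℤ} (hc : ContinuousOn s {q}ᶜ)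
    (h0 : ∀ x, x ≠ q → s x ≠ 0) {c : OpenPartialHomeomorph R ℂ} (hq : q ∈ c.source)
    (sc₀ : ∀ x ∈ c.source, ContMDiffAt (𝓡 2) 𝓘(ℝ, ℂ) ∞ c x) (hj : jac (mf (𝓡 2) 𝓘(ℝ, ℂ) c q) ≠ 0)
    (h : LE s (fun x => (c x - c q) ^ n) q) : n = 0 := by
  classical
  borelize R (EE 2)
  have : SecondCountableTopology R := ChartedSpace.secondCountable_of_sigmaCompact (EE 2) R
  obtain ⟨U, hU, ψ, h1, h2⟩ := h
  have sc : ∀ x ∈ c.source, ContMDiffAt (𝓡 2) 𝓘(ℝ, ℂ) ∞ (fun y => c y - c q) x :=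
    fun x hx => (sc₀ x hx).sub contMDiffAt_const
  let ρ := rat a (pm (𝓡 2) 𝓘(ℝ, ℂ) (fun y => c y - c q) oZ)
  have ρ0 : ρ q ≠ 0 := div_ne_zero (by
    rw [tp_pm rk2, mf_of_has (f := fun y => c y - c q)
      ((((sc₀ q hq).mdifferentiableAt ne0).hasMFDerivAt).sub (hasMFDerivAt_const _ _))]
    exact mul_ne_zero (mt (congrArg jac (sub_zero _)).symm.trans hj) (ori_oZ.ne _)) (ha.ne q)
  have cρ : ContinuousAt ρ q := contAt_rat (ha.sm q) (ha.ne q) (SmAt.pm (sc q hq) (ori_oZ.sm _))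
  have hV : interior (U ∩ c.source ∩ {x | 0 < ρ q * ρ x}) ∈ 𝓝 q := interior_mem_nhds.2
    (inter_mem (inter_mem hU (c.open_source.mem_nhds hq))
      ((continuousAt_const.mul cρ).eventually (lt_mem_nhds (mul_self_pos.2 ρ0))))
  obtain ⟨r, hr, hs⟩ := nhds_basis_closedBall.mem_iff.1 (inter_mem
    (c.open_target.mem_nhds (c.map_source hq))
    (c.continuousAt_symm (c.map_source hq) (by rwa [c.left_inv hq])))
  let D : ℝ → Set R := fun t => c.symm '' closedBall (c q) t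
  let B : ℝ → Set R := fun t => c.source ∩ c ⁻¹' ball (c q) t
  have cD : ∀ t ≤ r, IsClosed (D t) := fun t ht => ((isCompact_closedBall _ _).image_of_continuousOn
    (c.continuousOn_symm.mono fun z hz => (hs (closedBall_subset_closedBall ht hz)).1)).isClosed
  have oB : ∀ t, IsOpen (B t) := fun t => c.isOpen_inter_preimage isOpen_ball
  have mD : ∀ t ≤ r, ∀ x, x ∈ D t ↔ x ∈ c.source ∧ ‖c x - c q‖ ≤ t := fun t ht x =>
    ⟨by
      rintro ⟨z, hz, rfl⟩
      have := (hs (closedBall_subset_closedBall ht hz)).1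
      exact ⟨c.map_target this, by rwa [c.right_inv this, ← mem_closedBall_iff_norm]⟩,
    fun hx => ⟨c x, mem_closedBall_iff_norm.2 hx.2, c.left_inv hx.1⟩⟩
  have mB : ∀ t x, x ∈ B t ↔ x ∈ c.source ∧ ‖c x - c q‖ < t := fun t x =>
    and_congr_right fun _ => mem_ball_iff_norm
  have DV : D r ⊆ _ := image_subset_iff.2 fun z hz => (hs hz).2
  obtain ⟨χ₀, c1, -, -, cc⟩ := exists_cut (cD r le_rfl) isOpen_interior DV
  have ne : ∀ t > 0, ∀ x ∉ B t, x ≠ q := fun t ht x hx e => hx ((mB t x).2 (by simp [e, hq, ht]))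
  have n0 : ∀ x ∈ c.source, x ≠ q → c x - c q ≠ 0 := fun x hx h e =>
    h (c.injOn hx hq (sub_eq_zero.1 e))
  have es : ∀ x ∈ D r, x ≠ q → exp (-(χ₀ x * ψ x)) * s x = (c x - c q) ^ n := fun x hx h => by
    rw [c1 x hx, h2 x ⟨(interior_subset (DV hx)).1.1, h⟩, ← mul_assoc, ← exp_add]
    simp
  have BD : B r ⊆ D r := fun x hx => (mD r le_rfl x).2 ⟨hx.1, ((mB r x).1 hx).2.le⟩
  obtain ⟨g, sg, g1, g0⟩ := exists_smooth (𝓡 2) (s := fun x => exp (-(χ₀ x * ψ x)) * s x)
    (oB (r / 4)).isClosed_compl ((cD (3 * r / 4) (by linarith)).sdiff (oB (r / 4)))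
    (fun x hx => ⟨((((cc {q}ᶜ ψ (h1.mono fun y hy => ⟨(interior_subset hy.1).1.1, hy.2⟩)).neg.cexp).mul
      hc).continuousAt (isOpen_ne.mem_nhds (ne _ (by linarith) x hx))),
      mul_ne_zero (exp_ne_zero _) (h0 x (ne _ (by linarith) x hx))⟩) fun x hx => by
      have h3 := (mD _ (by linarith) x).1 hx.1
      have h4 : B r ∩ {q}ᶜ ∈ 𝓝 x := ((oB r).inter isOpen_ne).mem_nhds
        ⟨(mB r x).2 ⟨h3.1, by linarith [h3.2]⟩, ne _ (by linarith) x hx.2⟩
      filter_upwards [eventually_eventually_nhds.2 h4] with y hy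
      have h5 := hy.self_of_nhds
      exact (ContDiffAt.comp_contMDiffAt (f := fun y => c y - c q) (((analyticAt_id (𝕜 := ℂ)).zpow (n := n)
        (n0 y h5.1.1 h5.2)).contDiffAt.restrict_scalars ℝ) (sc y h5.1.1)).congr_of_eventuallyEq
        (hy.mono fun z hz => es z (BD hz.1) hz.2)
  let κ : ℝ → ℝ := fun t => Real.smoothTransition ((t - r ^ 2 / 9) / (r ^ 2 / 4 - r ^ 2 / 9))
  have p : 0 < r ^ 2 / 4 - r ^ 2 / 9 := by nlinarith
  have sκ : ContDiff ℝ ∞ κ :=
    Real.smoothTransition.contDiff.comp ((contDiff_id.sub contDiff_const).div_const _)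
  have κ0 : ∀ t ≤ r ^ 2 / 9, κ t = 0 := fun t ht => Real.smoothTransition.zero_of_nonpos
    (div_nonpos_of_nonpos_of_nonneg (by linarith) p.le)
  have κ1 : ∀ t ≥ r ^ 2 / 4, κ t = 1 := fun t ht => Real.smoothTransition.one_of_one_le
    ((one_le_div p).2 (by linarith))
  have κm : Monotone κ := fun x y h =>
    Real.smoothTransition.monotone (div_le_div_of_nonneg_right (by linarith) p.le)
  let χ : R → ℝ := fun x => if x ∈ c.source then κ (normSq (c x - c q)) else 1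
  have x1 : ∀ x ∈ c.source, χ =ᶠ[𝓝 x] fun y => κ (normSq (c y - c q)) := fun x hx =>
    eventually_of_mem (c.open_source.mem_nhds hx) fun y hy => if_pos hy
  have x2 : ∀ x ∉ D (r / 2), χ =ᶠ[𝓝 x] fun _ => 1 := fun x hx => by
    filter_upwards [(cD _ (by linarith)).isOpen_compl.mem_nhds hx] with y hy
    by_cases h : y ∈ c.source
    · have : r / 2 < ‖c y - c q‖ := not_le.1 fun h' => hy ((mD _ (by linarith) y).2 ⟨h, h'⟩)
      exact (if_pos h).trans (κ1 _ (by rw [normSq_eq_norm_sq]; nlinarith))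
    · exact if_neg h
  have x3 : ∀ x ∈ B (r / 3), χ =ᶠ[𝓝 x] fun _ => 0 := fun x hx => by
    filter_upwards [(oB _).mem_nhds hx] with y hy
    have := ((mB _ y).1 hy).2
    exact (if_pos hy.1).trans (κ0 _ (by rw [normSq_eq_norm_sq]; nlinarith [norm_nonneg (c y - c q)]))
  have sχ : ContMDiff (𝓡 2) 𝓘(ℝ, ℝ) ∞ χ := fun x => by
    by_cases hx : x ∈ D (r / 2)
    · have h := ((mD _ (by linarith) x).1 hx).1
      refine ((sκ.comp (contDiff_norm_sq ℝ)).contDiffAt.comp_contMDiffAt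
        (sc x h)).congr_of_eventuallyEq ((x1 x h).mono fun y hy => ?_)
      simp only [hy, normSq_eq_norm_sq, comp_apply]
    · exact contMDiffAt_const.congr_of_eventuallyEq (x2 x hx)
  have B43 : B (r / 4) ⊆ B (r / 3) := inter_subset_inter_right _
    (preimage_mono (ball_subset_ball (by linarith)))
  have su : ∀ x ∉ B (r / 4), CSm (𝓡 2) (fun y => dir (g y)) x := fun x hx =>
    (contMDiffAt_dir (g0 x hx)).comp x (sg x)
  have tχ : ∀ x ∈ tsupport χ, x ∉ B (r / 4) := fun x hx h =>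
    notMem_tsupport_iff_eventuallyEq.2 (x3 x (B43 h)) hx
  have st := integ_fsmul_dM ha sχ (HasCompactSupport.of_compactSpace χ)
    fun x hx => smAt_ang (su x (tχ x hx))
  rw [show χ • dM (𝓡 2) (ang (𝓡 2) fun y => dir (g y)) = 0 from funext fun x => by
    by_cases hx : χ x = 0
    · simp [hx]
    · simp [dM_ang (su x (tχ x (subset_tsupport _ hx)))], integ_zero, zero_eq_neg] at st
  have z : ∀ x (b : ℝ), (χ =ᶠ[𝓝 x] fun _ => b) → df (𝓡 2) χ x = 0 := fun x b h => by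
    rw [df, mf_congr h, mf_const]
    simp
  have cF : Continuous (rat a (df (𝓡 2) χ * ang (𝓡 2) fun y => dir (g y))) :=
    ha.continuous_rat fun x => by
      by_cases hx : x ∈ B (r / 4)
      · refine CAt.congr cAt_zero ?_
        filter_upwards [(oB _).mem_nhds hx] with y hy
        simp [z y 0 (x3 y (B43 hy))]
      · exact ((smAt_df (sχ x)).mul (smAt_ang (su x hx))).of_le (by simp)
  have eF : ∀ x ∈ D (r / 2), x ∉ B (r / 3) → 0 < ρ q * ρ x ∧
      rat a (df (𝓡 2) χ * ang (𝓡 2) fun y => dir (g y)) x =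
        2 * deriv κ (normSq (c x - c q)) * n * ρ x := fun x hx hx' => by
    have h3 := (mD _ (by linarith) x).1 hx
    have h4 : r / 3 ≤ ‖c x - c q‖ := not_lt.1 fun h => hx' ((mB _ x).2 ⟨h3.1, h⟩)
    refine ⟨(interior_subset (DV ((mD r le_rfl x).2 ⟨h3.1, by linarith [h3.2]⟩))).2, ?_⟩
    have h5 : (fun y => dir (g y)) =ᶠ[𝓝 x] fun y => dir ((c y - c q) ^ n) := by
      filter_upwards [(oB (3 * r / 4)).mem_nhds ((mB _ x).2 ⟨h3.1, by linarith [h3.2]⟩),
        (cD (r / 4) (by linarith)).isOpen_compl.mem_nhds fun h => by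
          linarith [((mD _ (by linarith) x).1 h).2]] with y h6 h7
      have h8 := (mB _ y).1 h6
      have h9 : y ∉ B (r / 4) := fun h => h7 ((mD _ (by linarith) y).2 ⟨h.1, ((mB _ y).1 h).2.le⟩)
      rw [g1 y ⟨(mD _ (by linarith) y).2 ⟨h8.1, h8.2.le⟩, h9⟩,
        es y ((mD r le_rfl y).2 ⟨h8.1, by linarith [h8.2]⟩) (ne _ (by linarith) y h9)]
    rw [rat, Pi.mul_apply, ang_congr h5, df_congr' (x1 x h3.1),
      df_mul_ang (sc x h3.1) (n0 x h3.1 (ne _ (by linarith) x hx'))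
        (sκ.differentiable (by simp) _).hasDerivAt, map_smul, smul_eq_mul, mul_div_assoc]
    rfl
  by_contra hn
  obtain ⟨t, ht, e⟩ := exists_deriv_eq_slope κ (sub_pos.1 p) sκ.continuous.continuousOn
    (sκ.differentiable (by simp)).differentiableOn
  rw [κ1 _ le_rfl, κ0 _ le_rfl] at e
  have t0 : 0 ≤ t := le_trans (by positivity) ht.1.le
  have hz : c q + √t ∈ closedBall (c q) (r / 2) := by
    simpa [abs_of_nonneg, Real.sqrt_le_iff, hr.le, div_nonneg, div_pow] using by linarith [ht.2]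
  have hz' := c.right_inv (hs (closedBall_subset_closedBall (by linarith) hz)).1
  have hx := eF _ ⟨_, hz, rfl⟩ fun h => by
    have := ((mB _ _).1 h).2
    rw [hz', add_sub_cancel_left, norm_real, Real.norm_of_nonneg (Real.sqrt_nonneg _),
      Real.sqrt_lt' (by linarith)] at this
    linarith [ht.1]
  have := ha.finCpt
  have := ha.openPos
  have := (continuous_const.mul cF).integral_pos_of_hasCompactSupport_nonneg_nonzero
    (μ := dens (𝓡 2) a) (f := fun x => ρ q * n * _) (HasCompactSupport.of_compactSpace _)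
    (fun x => by
      by_cases h1 : x ∈ D (r / 2)
      · by_cases h2 : x ∈ B (r / 3)
        · simp [rat, z x 0 (x3 x h2)]
        · obtain ⟨h3, h4⟩ := eF x h1 h2
          have h5 : 0 ≤ deriv κ (normSq (c x - c q)) := κm.deriv_nonneg
          have := mul_nonneg (mul_nonneg h3.le h5) (mul_self_nonneg (n : ℝ))
          simp only [h4, Pi.zero_apply]
          linarith
      · simp [rat, z x 1 (x2 x h1)]) (x := c.symm (c q + √t)) (by
      simp only [hx.2, hz', add_sub_cancel_left, normSq_ofReal, Real.mul_self_sqrt t0, e]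
      have := right_ne_zero_of_mul hx.1.ne'
      have : (n : ℝ) ≠ 0 := by exact_mod_cast hn
      have := p.ne'
      positivity)
  rw [integral_const_mul] at this
  exact this.ne' (mul_eq_zero_of_right _ st)

/-- vortices in a connected open set are collected at one point -/
theorem collect {X V : Type*} [TopologicalSpace X] [T4Space X] [NormedAddCommGroup V]
    [NormedSpace ℂ V] {P : X → V →L[ℂ] V} (hP : IsLine P univ)
    (hc : ∀ x : X, ∃ c : OpenPartialHomeomorph X ℂ, x ∈ c.source) {W F : Set X} (hW : IsOpen W)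
    (cW : IsPreconnected W) (hF : F.Finite) (hFW : F ⊆ W) {q : X} (hq : q ∈ W) {s : X → V}
    (hs : IsFrame P s (F ∪ {q})ᶜ) : ∃ s', IsFrame P s' {q}ᶜ ∧ ∀ᶠ x in 𝓝ˢ Wᶜ, s' x = s x := by
  have mv : ∀ F : Set X, IsClosed F → ∀ q ∈ W, ∀ q' ∈ W, ∀ s, IsFrame P s (F ∪ {q})ᶜ →
      ∃ s', IsFrame P s' (F ∪ {q'})ᶜ ∧ ∀ᶠ x in 𝓝ˢ Wᶜ, s' x = s x := fun F hF q hq q' hq' => by
    refine cW.induction₂' (fun q q' => ∀ s, IsFrame P s (F ∪ {q})ᶜ →
      ∃ s', IsFrame P s' (F ∪ {q'})ᶜ ∧ ∀ᶠ x in 𝓝ˢ Wᶜ, s' x = s x) (fun x hx => ?_)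
      (fun _ _ _ _ _ _ h h' s hs => ?_) hq hq'
    · obtain ⟨c, hx'⟩ := hc x
      obtain ⟨B, hB, B1, B2⟩ := exists_mem_nhds_isClosed_subset (hW.mem_nhds hx)
      obtain ⟨O, O1, O2, O3, h⟩ := move (P := P) (c.restrOpen _ isOpen_interior)
        ⟨hx', mem_interior_iff_mem_nhds.2 hB⟩
      have key : ∀ q ∈ O, ∀ q' ∈ O, ∀ s, IsFrame P s (F ∪ {q})ᶜ →
          ∃ s', IsFrame P s' (F ∪ {q'})ᶜ ∧ ∀ᶠ x in 𝓝ˢ Wᶜ, s' x = s x := fun q hq q' hq' s hs => by
        rcases eq_or_ne q q' with rfl | hn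
        · exact ⟨s, hs, .of_forall fun _ => rfl⟩
        by_cases hqF : q ∈ F
        · exact ⟨s, hs.mono fun x hx h => hx (Or.inl (h.elim id fun e => e ▸ hqF)),
            .of_forall fun _ => rfl⟩
        obtain ⟨n, hi⟩ := exists_ix (hP.mono (subset_univ Fᶜ)) (hF.isOpen_compl.mem_nhds hqF)
          (hs.mono fun x hx h => h.elim hx.1 hx.2) _ (O3 hq)
        obtain ⟨s', h1, -, h2⟩ := h q hq q' hq' hn s F n hF hqF hs hi
        exact ⟨s', h1, eventually_of_mem (B1.isOpen_compl.mem_nhdsSet.2 (compl_subset_compl.2 B2))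
          fun y hy => h2 y fun h => hy (interior_subset h.2)⟩
      filter_upwards [nhdsWithin_le_nhds (O1.mem_nhds O2)] with y hy using ⟨key x O2 y hy, key y hy x O2⟩
    · obtain ⟨s1, h1, h2⟩ := h s hs
      obtain ⟨s2, h3, h4⟩ := h' s1 h1
      exact ⟨s2, h3, (h4.and h2).mono fun _ h => h.1.trans h.2⟩
  induction F, hF using Set.Finite.induction_on generalizing s with
  | empty => exact ⟨s, by simpa using hs, .of_forall fun _ => rfl⟩
  | @insert x F _ hF ih =>
    rw [insert_union, ← union_singleton] at hs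
    obtain ⟨s1, h1, h2⟩ := mv _ (hF.union (finite_singleton q)).isClosed x (hFW (mem_insert _ _)) q hq
      s hs
    rw [union_assoc, union_self] at h1
    obtain ⟨s2, h3, h4⟩ := ih ((subset_insert _ _).trans hFW) h1
    exact ⟨s2, h3, (h4.and h2).mono fun _ h => h.1.trans h.2⟩

/-- a generic member of a pencil has finitely many zeros -/
theorem finite_pencil (a : R → Ext (EE 2)) {f g : R → ℂ} (sf : ContMDiff (𝓡 2) 𝓘(ℝ, ℂ) ∞ f)
    (sg : ContMDiff (𝓡 2) 𝓘(ℝ, ℂ) ∞ g) (h : ∀ x, g x = 0 → f x ≠ 0) :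
    ∃ v, {x | f x = g x * v}.Finite := by
  obtain ⟨t, ht⟩ := isCompact_univ.elim_finite_subcover _ (fun x => (zc a x).open_source)
    fun x _ => mem_iUnion.2 ⟨x, mem_zc x⟩
  obtain ⟨v, hv⟩ := ((ae_ball_iff t.countable_toSet).2 fun x _ => ae_isolated (volume : Measure ℂ)
    fun w => f ((zc a x).symm w) / g ((zc a x).symm w)).exists
  refine ⟨v, (isClosed_eq sf.continuous (sg.continuous.mul continuous_const)).isCompact.finite
    (isDiscrete_iff_nhdsNE.2 fun y hy => inf_principal_eq_bot.2 ?_)⟩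
  obtain ⟨x, hx, hxy⟩ := mem_iUnion₂.1 (ht (mem_univ y))
  have d : ∀ k : R → ℂ, ContMDiff (𝓡 2) 𝓘(ℝ, ℂ) ∞ k →
      DifferentiableAt ℝ (fun w => k ((zc a x).symm w)) (zc a x y) := fun k hk =>
    ((hk _).comp _ (sm_zc_symm ((zc _ x).map_source hxy))).contDiffAt.differentiableAt (by simp)
  have h0 := hv x hx
  generalize zc a x = c at *
  have n : ∀ y, f y = g y * v → g y ≠ 0 := fun y hy e => h y e (by rw [hy, e, zero_mul])
  have key : ∀ y ∈ c.source, f y = g y * v → f (c.symm (c y)) / g (c.symm (c y)) = v :=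
    fun y h1 h2 => by rw [c.left_inv h1, h2, mul_div_cancel_left₀ _ (n y h2)]
  have h1 := h0 (c y) ((d f sf).fun_mul ((d g sg).fun_inv (by rw [c.left_inv hxy]; exact n y hy)))
    (key y hxy hy)
  have hs := c.open_source.mem_nhds hxy
  have h2 : Tendsto c (𝓝[≠] y) (𝓝[≠] (c y)) := by
    refine tendsto_nhdsWithin_iff.2 ⟨tendsto_nhdsWithin_of_tendsto_nhds (c.continuousAt hxy), ?_⟩
    filter_upwards [self_mem_nhdsWithin, nhdsWithin_le_nhds hs] with y' h3 h4 h5
    exact h3 (c.injOn h4 hxy h5)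
  filter_upwards [h2.eventually h1, nhdsWithin_le_nhds hs] with y' h3 h4 h5
  exact h3 (key y' h4 h5)

/-- **EXT** -/
theorem ext : Hel40.ExtStmt := by
  intro R a W N u ha hW cW hN hWN hu
  rcases W.eq_empty_or_nonempty with rfl | ⟨q, hq⟩
  · exact ⟨u, fun x => hu.contMDiffAt (hN.mem_nhds (hWN id)), .of_forall fun _ => rfl⟩
  obtain ⟨χ, c0, c1, -⟩ := exists_contMDiffMap_zero_one_nhds_of_isClosed (n := ⊤) (𝓡 2)
    hN.isClosed_compl hW.isClosed_compl (disjoint_compl_left_iff_subset.2 hWN)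
  have sχ : ContMDiff (𝓡 2) 𝓘(ℝ, ℂ) ∞ fun x => (χ x : ℂ) :=
    ofRealCLM.contDiff.contMDiff.comp χ.contMDiff
  have su : ∀ x ∈ N, ContMDiffAt (𝓡 2) 𝓘(ℝ, ℂ) ∞ (fun x => (u x : ℂ)) x := fun x hx =>
    (contMDiff_coe _).comp x (hu.contMDiffAt (hN.mem_nhds hx))
  have sf : ContMDiff (𝓡 2) 𝓘(ℝ, ℂ) ∞ fun x => (χ x : ℂ) * u x := fun x => by
    by_cases hx : x ∈ N
    · exact ContDiffAt.comp_contMDiffAt (f := fun x => ((χ x : ℂ), (u x : ℂ))) contDiff_mul.contDiffAt
        ((sχ x).prodMk_space (su x hx))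
    · exact (contMDiffAt_const (c := 0)).congr_of_eventuallyEq
        ((c0.filter_mono (nhds_le_nhdsSet hx)).mono fun y hy => by simp [hy])
  have sg : ContMDiff (𝓡 2) 𝓘(ℝ, ℂ) ∞ fun x => (χ x : ℂ) - 1 := sχ.sub contMDiff_const
  obtain ⟨v, hv⟩ := finite_pencil a sf sg fun x h => by simp [sub_eq_zero.1 h]
  have hP : IsLine (fun _ : R => ContinuousLinearMap.id ℂ ℂ) univ :=
    ⟨continuousOn_const, fun _ _ _ => rfl, fun _ _ => ⟨1, one_ne_zero, rfl, fun v _ => ⟨v, by simp⟩⟩⟩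
  obtain ⟨s, h1, h2⟩ := collect hP (fun x => ⟨_, mem_zc (a := a) x⟩) hW cW hv
    (fun x hx => by_contra fun h => by simp [c1.self_of_nhdsSet x h] at hx) hq
    (s := fun x => (χ x : ℂ) * u x - (χ x - 1) * v)
    ⟨(sf.continuous.sub (sg.continuous.mul continuous_const)).continuousOn, fun _ _ => rfl,
      fun x hx e => hx (.inl (sub_eq_zero.1 e))⟩
  obtain ⟨n, hn⟩ := exists_ix hP univ_mem (h1.mono fun _ hx => hx.2) _ (mem_zc (a := a) q)
  obtain rfl : n = 0 := by
    obtain ⟨U, hU, e, φ, h3, h4, h5⟩ := hn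
    refine ix_zero ha h1.cont h1.ne (mem_zc q) (fun x hx => sm_zc hx)
      (right_ne_zero_of_mul (pos_zc ha q).ne') ((LE.of_eq (b := φ * e) ?_).trans
        ((h5.mul (LE.of_ne hU h3.cont (h3.ne q (mem_of_mem_nhds hU)))).trans (by simp [LE.refl])))
    filter_upwards [self_mem_nhdsWithin, nhdsWithin_le_nhds hU] with x h6 h7 using h4 x ⟨h7, h6⟩
  obtain ⟨B, hB, B1, B2⟩ := exists_mem_nhds_isClosed_subset (hW.mem_nhds hq)
  obtain ⟨s', h3, h4⟩ := remove univ_mem (h1.mono fun _ hx => hx.2)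
    (hn.of_le (.of_eq (.of_forall fun _ => zpow_zero _))) hB
  have h5 : ∀ᶠ x in 𝓝ˢ Wᶜ, x ∈ N ∧ s' x = u x := by
    filter_upwards [h2, c1, B1.isOpen_compl.mem_nhdsSet.2 (compl_subset_compl.2 B2),
      hN.mem_nhdsSet.2 hWN] with x h6 h7 h8 h9
    exact ⟨h9, by simp [h4 x h8, h6, h7]⟩
  obtain ⟨O, O1, O2, O3⟩ := mem_nhdsSet_iff_exists.1 h5
  obtain ⟨C, C1, C2, C3⟩ := normal_exists_closure_subset hW.isClosed_compl O1 O2
  obtain ⟨g, g1, g2, g3⟩ := exists_smooth (𝓡 2) (s := s') isClosed_univ isClosed_closure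
    (fun x hx => ⟨h3.cont.continuousAt univ_mem, h3.ne x hx⟩) fun x hx => by
      filter_upwards [O1.mem_nhds (C3 hx)] with y hy
      exact (su y (O3 hy).1).congr_of_eventuallyEq
        (eventually_of_mem (O1.mem_nhds hy) fun z hz => (O3 hz).2)
  refine ⟨fun x => dir (g x), fun x => (contMDiffAt_dir (g3 x trivial)).comp x (g1 x),
    eventually_of_mem (C1.mem_nhdsSet.2 C2) fun x hx => ?_⟩
  simp only [g2 x (subset_closure hx), (O3 (C3 (subset_closure hx))).2]
  simpa using dir_mul one_pos (u x)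

end

end Crest.Agent.X212.Lsf39
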